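import Vale.Agent.P156.H924.Abs
import Vale.Agent.P156.H490.Avg
import Vale.Agent.P156.H814.Typ
import Vale.Agent.P156.H814.Vol
import Vale.Agent.P156.H877.Gk

/-! The law of large numbers for star laws of a field plus Gaussian noise on regular graphs. -/

open MeasureTheory Filter Topology ProbabilityTheory Matrix

namespace Vale.Agent.P156.H924

open Vale.Agent.P156 Vale.Agent.P156.H814 Vale.Agent.P156.H877 Vale.Agent.P156.H490

noncomputable section

theorem starsF_eq {n d : ℕ} (G : SimpleGraph (Fin n)) : starsF d G = starsOf d G := by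
  classical
  ext p
  simp [starsF, starsOf]

theorem card_starsF {n d : ℕ} {G : SimpleGraph (Fin n)} (hG : G ∈ regularGraphs n d) :
    (starsF d G).card = n * d.factorial := by
  rw [starsF_eq, card_starsOf hG]

theorem sum_starsF {n d : ℕ} {G : SimpleGraph (Fin n)} (hG : G ∈ regularGraphs n d)
    (h : Fin n → ℝ) (a : Option (Fin d)) :
    ∑ p ∈ starsF d G, h (nd p a) = d.factorial * ∑ v, h v := by
  rw [starsF_eq]
  exact sum_star_vtx hG h a

theorem avg_eq_subtype {α : Type*} (s : Finset α) (Φ : α → ℝ) :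
    avg s Φ = (Fintype.card s : ℝ)⁻¹ * ∑ p : s, Φ p := by
  unfold avg
  rw [Fintype.card_coe, div_eq_inv_mul, Finset.sum_coe_sort s Φ]

theorem prob_eq_frac {α : Type*} (s : Finset α) (P : α → Prop) :
    prob s P = frac (fun p : s => P p) := by
  classical
  rw [frac_eq_sum, prob, avg_eq_subtype]

/-- Cauchy-Schwarz and uniformity of the vertices of a star. -/
theorem h3_of_HS {d : ℕ} (n : ℕ → ℕ) (hn : ∀ j, 0 < n j) (G : ∀ j, SimpleGraph (Fin (n j)))
    (hG : ∀ j, G j ∈ regularGraphs (n j) d) (Γ : ∀ j, Matrix (Fin (n j)) (Fin (n j)) ℝ)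
    (hH : Tendsto (fun j => (∑ u, ∑ w, (Γ j u w) ^ 2) / (n j : ℝ) ^ 2) atTop (𝓝 0))
    (a b : Option (Fin d)) :
    Tendsto (fun j => (Fintype.card (starsF d (G j)) : ℝ)⁻¹ ^ 2 *
      ∑ p : starsF d (G j), ∑ q : starsF d (G j), |Γ j (nd p.1 a) (nd q.1 b)|) atTop (𝓝 0) := by
  have hs := hH.sqrt
  rw [Real.sqrt_zero] at hs
  refine squeeze_zero (fun j => by positivity) (fun j => ?_) hs
  have hcard : (Fintype.card (starsF d (G j)) : ℝ) = n j * d.factorial := by
    rw [Fintype.card_coe, card_starsF (hG j)]; push_cast; rfl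
  have hnj : (0:ℝ) < n j := by exact_mod_cast hn j
  have hdf : (0:ℝ) < d.factorial := by positivity
  refine Real.le_sqrt_of_sq_le ?_
  have h1 : (∑ p : starsF d (G j), ∑ q : starsF d (G j), |Γ j (nd p.1 a) (nd q.1 b)|) ^ 2 ≤
      (Fintype.card (starsF d (G j)) : ℝ) ^ 2 *
        ∑ p : starsF d (G j), ∑ q : starsF d (G j), (Γ j (nd p.1 a) (nd q.1 b)) ^ 2 := by
    rw [← Fintype.sum_prod_type', ← Fintype.sum_prod_type']
    refine (sq_sum_le_card_mul_sum_sq).trans ?_
    rw [Finset.card_univ, Fintype.card_prod]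
    simp only [sq_abs]
    refine le_of_eq ?_
    push_cast
    ring
  have h2 : ∑ p : starsF d (G j), ∑ q : starsF d (G j), (Γ j (nd p.1 a) (nd q.1 b)) ^ 2 =
      (d.factorial : ℝ) ^ 2 * ∑ u, ∑ w, (Γ j u w) ^ 2 := by
    have e1 : ∀ u : Fin (n j), ∑ q : starsF d (G j), (Γ j u (nd q.1 b)) ^ 2 =
        d.factorial * ∑ w, (Γ j u w) ^ 2 := by
      intro u
      rw [Finset.sum_coe_sort (starsF d (G j)) (fun q => (Γ j u (nd q b)) ^ 2)]
      exact sum_starsF (hG j) (fun w => (Γ j u w) ^ 2) b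
    simp_rw [e1]
    rw [Finset.sum_coe_sort (starsF d (G j))
      (fun p => (d.factorial : ℝ) * ∑ w, (Γ j (nd p a) w) ^ 2),
      sum_starsF (hG j) (fun u => (d.factorial : ℝ) * ∑ w, (Γ j u w) ^ 2) a, ← Finset.mul_sum]
    ring
  rw [h2, hcard] at h1
  rw [mul_pow, hcard]
  calc ((((n j : ℝ) * d.factorial)⁻¹) ^ 2) ^ 2 *
        (∑ p : starsF d (G j), ∑ q : starsF d (G j), |Γ j (nd p.1 a) (nd q.1 b)|) ^ 2
      ≤ ((((n j : ℝ) * d.factorial)⁻¹) ^ 2) ^ 2 *
        (((n j : ℝ) * d.factorial) ^ 2 * ((d.factorial : ℝ) ^ 2 * ∑ u, ∑ w, (Γ j u w) ^ 2)) :=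
        mul_le_mul_of_nonneg_left h1 (by positivity)
    _ = (∑ u, ∑ w, (Γ j u w) ^ 2) / (n j : ℝ) ^ 2 := by
        field_simp

theorem tendsto_cf_of_bcf {I : Type*} [Fintype I] {J : Type*} {l : Filter J} {α : J → Type*}
    (s : ∀ j, Finset (α j)) (x : ∀ j, α j → I → ℝ) (X : Measure (I → ℝ)) [IsProbabilityMeasure X]
    (hX : ∀ ψ : BoundedContinuousFunction (I → ℝ) ℝ,
      Tendsto (fun j => avg (s j) (fun p => ψ (x j p))) l (𝓝 (∫ x, ψ x ∂X))) (t : I → ℝ) :
    Tendsto (fun j => (Fintype.card (s j) : ℂ)⁻¹ *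
      ∑ p : s j, Complex.exp ((∑ i, t i * x j p i : ℝ) * Complex.I)) l
      (𝓝 (∫ x, Complex.exp ((∑ p, t p * x p : ℝ) * Complex.I) ∂X)) := by
  let c : BoundedContinuousFunction (I → ℝ) ℝ :=
    BoundedContinuousFunction.ofNormedAddCommGroup (fun x => Real.cos (∑ i, t i * x i))
      (by fun_prop) 1 (fun x => by rw [Real.norm_eq_abs]; exact Real.abs_cos_le_one _)
  let sn : BoundedContinuousFunction (I → ℝ) ℝ :=
    BoundedContinuousFunction.ofNormedAddCommGroup (fun x => Real.sin (∑ i, t i * x i))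
      (by fun_prop) 1 (fun x => by rw [Real.norm_eq_abs]; exact Real.abs_sin_le_one _)
  have hc := hX c
  have hs := hX sn
  have hexp : ∀ x : I → ℝ, Complex.exp ((∑ i, t i * x i : ℝ) * Complex.I) =
      (c x : ℂ) + (sn x : ℂ) * Complex.I := by
    intro x
    rw [Complex.exp_mul_I, ← Complex.ofReal_cos, ← Complex.ofReal_sin]
    rfl
  have hci : Integrable c X := c.integrable X
  have hsi : Integrable sn X := sn.integrable X
  have hint : ∫ x, Complex.exp ((∑ p, t p * x p : ℝ) * Complex.I) ∂X =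
      ((∫ x, c x ∂X : ℝ) : ℂ) + ((∫ x, sn x ∂X : ℝ) : ℂ) * Complex.I := by
    simp_rw [hexp]
    rw [integral_add hci.ofReal (hsi.ofReal.mul_const _), integral_mul_const,
      integral_complex_ofReal, integral_complex_ofReal]
  have hav : ∀ j, (Fintype.card (s j) : ℂ)⁻¹ *
      ∑ p : s j, Complex.exp ((∑ i, t i * x j p i : ℝ) * Complex.I) =
      ((avg (s j) (fun p => c (x j p)) : ℝ) : ℂ) +
        ((avg (s j) (fun p => sn (x j p)) : ℝ) : ℂ) * Complex.I := by
    intro j
    rw [avg_eq_subtype, avg_eq_subtype]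
    simp_rw [hexp]
    rw [Finset.sum_add_distrib, ← Finset.sum_mul]
    push_cast
    ring
  simp_rw [hav]
  rw [hint]
  exact ((Complex.continuous_ofReal.tendsto _).comp hc).add
    (((Complex.continuous_ofReal.tendsto _).comp hs).mul_const _)

/-- The law of large numbers for star laws, for sets with Lebesgue null boundary. -/
theorem lln_star {d k : ℕ} (n : ℕ → ℕ) (hn : ∀ j, 0 < n j) (G : ∀ j, SimpleGraph (Fin (n j)))
    (hG : ∀ j, G j ∈ regularGraphs (n j) d) (f : ∀ j, Fin (n j) → Fin k → ℝ)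
    (B : ∀ j, Matrix (Fin (n j)) (Fin (n j)) ℝ)
    (Sig : Matrix (Option (Fin d)) (Option (Fin d)) ℝ)
    (X : Measure (Option (Fin d) × Fin k → ℝ)) [IsProbabilityMeasure X]
    (hX : ∀ ψ : BoundedContinuousFunction (Option (Fin d) × Fin k → ℝ) ℝ,
      Tendsto (fun j => avg (starsF d (G j)) (fun p => ψ (onStar (f j) p))) atTop
        (𝓝 (∫ x, ψ x ∂X)))
    (hS : ∀ x y, Tendsto (fun j => avg (starsF d (G j)) (fun p =>
      |(B j * (B j)ᵀ) (nd p x) (nd p y) - Sig x y|)) atTop (𝓝 0))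
    (hH : Tendsto (fun j => (∑ u, ∑ w, ((B j * (B j)ᵀ) u w) ^ 2) / (n j : ℝ) ^ 2) atTop (𝓝 0))
    (S : Matrix (Option (Fin d) × Fin k) (Option (Fin d) × Fin k) ℝ)
    (hSk : ∀ p q, S p q = if p.2 = q.2 then Sig p.1 q.1 else 0) (hpd : S.PosDef)
    (W : Set (Option (Fin d) × Fin k → ℝ)) (hW : volume (frontier W) = 0)
    (ε : ℝ) (hε : 0 < ε) :
    Tendsto (fun j => stdG (Fin (n j) × Fin k) {ξ | ε ≤ |prob (starsF d (G j)) (fun p =>
      onStar (fun v a => f j v a + ∑ w, B j v w * ξ (w, a)) p ∈ W) - (sm X S).real W|})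
      atTop (𝓝 0) := by
  obtain ⟨C, hC, -⟩ := exists_sqrt hpd
  have hsm : smC X C = sm X S := (sm_eq_map (X := X) C hpd hC).symm
  have hfr : smC X C (frontier W) = 0 := by
    rw [hsm]
    exact withDensity_absolutelyContinuous _ _ hW
  have hne : ∀ j, Nonempty (starsF d (G j)) := by
    intro j
    rw [← Fintype.card_pos_iff, Fintype.card_coe, card_starsF (hG j)]
    exact Nat.mul_pos (hn j) (Nat.factorial_pos d)
  have h := lln (l := atTop) (S := fun j => starsF d (G j)) (V := fun j => Fin (n j))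
    (U := fun j => Fin (n j)) (N := Option (Fin d)) (K := Fin k)
    (fun j p a => nd p.1 a) (fun j p => onStar (f j) p.1) B Sig C
    (fun p q => by rw [hC, hSk]) X
    (fun t => tendsto_cf_of_bcf (fun j => starsF d (G j)) (fun j p => onStar (f j) p) X hX t)
    (fun a b => by
      have := hS a b
      simp_rw [avg_eq_subtype] at this
      exact this)
    (h3_of_HS n hn G hG (fun j => B j * (B j)ᵀ) hH) W hfr ε hε
  rw [hsm] at h
  refine h.congr fun j => ?_
  have hset : ∀ ξ : Fin (n j) × Fin k → ℝ,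
      frac (fun s : starsF d (G j) => zz (fun (p : starsF d (G j)) a => nd (↑p) a)
        (fun (p : starsF d (G j)) => onStar (f j) ↑p) (B j) ξ s ∈ W) =
      prob (starsF d (G j)) fun p =>
        onStar (fun v a => f j v a + ∑ w, B j v w * ξ (w, a)) p ∈ W := by
    intro ξ
    rw [prob_eq_frac]
    rfl
  simp only [hset]

/-! ### Quantised star laws -/

/-- The quantiser is locally constant off a countable set. -/
theorem qt_locally_const (m : ℕ) : ∃ D : Set ℝ, D.Countable ∧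
    ∀ y, y ∉ D → ∀ᶠ z in 𝓝 y, qt m z = qt m y := by
  rcases Nat.eq_zero_or_pos m with hm | hm
  · subst hm
    refine ⟨∅, Set.countable_empty, fun y _ => Eventually.of_forall fun z => ?_⟩
    simp [qt]
  have hm' : (0:ℝ) < m := by exact_mod_cast hm
  refine ⟨{(m:ℝ), -(m:ℝ)} ∪ Set.range (fun r : ℤ => (r : ℝ) / m - m), ?_, ?_⟩
  · exact (Set.to_countable _).union (Set.countable_range _)
  intro y hy
  rw [Set.mem_union, not_or] at hy
  obtain ⟨hy1, hy2⟩ := hy
  have hyne : |y| ≠ m := by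
    intro h
    rcases (abs_eq hm'.le).1 h with h | h
    · exact hy1 (by simp [h])
    · exact hy1 (by simp [h])
  rcases lt_or_gt_of_ne hyne with h | h
  · -- inside
    have hw : ∀ r : ℤ, (y + m) * m ≠ r := by
      intro r hr
      apply hy2
      refine ⟨r, ?_⟩
      simp only
      rw [← hr]
      field_simp
      ring
    have hpos : 0 < (y + m) * m := by
      have := (abs_lt.1 h).1
      exact mul_pos (by linarith) hm'
    set N := ⌊(y + m) * m⌋₊ with hN
    have h1 : (N : ℝ) < (y + m) * m := by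
      refine lt_of_le_of_ne (Nat.floor_le hpos.le) fun h' => hw N ?_
      rw [← h']; simp
    have h2 : (y + m) * m < N + 1 := Nat.lt_floor_add_one _
    have hc : Continuous fun z : ℝ => (z + m) * m := by fun_prop
    have e1 : ∀ᶠ z : ℝ in 𝓝 y, |z| < (m : ℝ) := continuous_abs.continuousAt.eventually_lt_const h
    have e2 : ∀ᶠ z in 𝓝 y, (N : ℝ) < (z + m) * m := hc.continuousAt.eventually_const_lt h1
    have e3 : ∀ᶠ z : ℝ in 𝓝 y, (z + m) * m < (N : ℝ) + 1 := hc.continuousAt.eventually_lt_const h2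
    filter_upwards [e1, e2, e3] with z z1 z2 z3
    have hf : ⌊(z + m) * m⌋₊ = N := by
      rw [Nat.floor_eq_iff (le_trans (Nat.cast_nonneg _) z2.le)]
      exact ⟨z2.le, z3⟩
    unfold qt
    rw [if_pos z1, if_pos h]
    simp only [hf, ← hN]
  · -- outside
    have e1 : ∀ᶠ z : ℝ in 𝓝 y, (m : ℝ) < |z| := continuous_abs.continuousAt.eventually_const_lt h
    filter_upwards [e1] with z z1
    unfold qt
    rw [if_neg (not_lt.2 z1.le), if_neg (not_lt.2 h.le)]

theorem frontier_cell {I : Type*} [Fintype I] (m : ℕ) (s : I → Fin (2 * m ^ 2 + 1)) :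
    volume (frontier {x : I → ℝ | ∀ i, qt m (x i) = s i}) = 0 := by
  obtain ⟨D, hD, hloc⟩ := qt_locally_const m
  have hsub : frontier {x : I → ℝ | ∀ i, qt m (x i) = s i} ⊆
      ⋃ i, ⋃ c ∈ D, {x : I → ℝ | x i = c} := by
    intro x hx
    by_contra hcon
    simp only [Set.mem_iUnion, Set.mem_ofPred_eq, not_exists] at hcon
    have h1 : ∀ i, ∀ᶠ y : I → ℝ in 𝓝 x, qt m (y i) = qt m (x i) := by
      intro i
      have h2 := hloc (x i) (fun hxi => hcon i (x i) hxi rfl)
      exact (continuous_apply i).continuousAt.eventually h2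
    have h2 : ∀ᶠ y : I → ℝ in 𝓝 x, ∀ i, qt m (y i) = qt m (x i) := eventually_all.2 h1
    rw [frontier, Set.mem_sdiff] at hx
    by_cases hxW : ∀ i, qt m (x i) = s i
    · apply hx.2
      rw [mem_interior_iff_mem_nhds]
      filter_upwards [h2] with y hy i
      rw [hy i, hxW i]
    · have h3 := mem_closure_iff_nhds.1 hx.1 _ h2
      obtain ⟨y, hy1, hy2⟩ := h3
      exact hxW fun i => by rw [← hy1 i]; exact hy2 i
  refine measure_mono_null hsub ?_
  refine measure_iUnion_null fun i => ?_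
  rw [measure_biUnion_null_iff hD]
  intro c _
  rw [volume_pi]
  exact Measure.pi_hyperplane (μ := fun _ : I => (volume : Measure ℝ)) i c

/-- The law of large numbers for the quantised star law. -/
theorem lln_qt {d k : ℕ} (n : ℕ → ℕ) (hn : ∀ j, 0 < n j) (G : ∀ j, SimpleGraph (Fin (n j)))
    (hG : ∀ j, G j ∈ regularGraphs (n j) d) (f : ∀ j, Fin (n j) → Fin k → ℝ)
    (B : ∀ j, Matrix (Fin (n j)) (Fin (n j)) ℝ)
    (Sig : Matrix (Option (Fin d)) (Option (Fin d)) ℝ)
    (X : Measure (Option (Fin d) × Fin k → ℝ)) [IsProbabilityMeasure X]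
    (hX : ∀ ψ : BoundedContinuousFunction (Option (Fin d) × Fin k → ℝ) ℝ,
      Tendsto (fun j => avg (starsF d (G j)) (fun p => ψ (onStar (f j) p))) atTop
        (𝓝 (∫ x, ψ x ∂X)))
    (hS : ∀ x y, Tendsto (fun j => avg (starsF d (G j)) (fun p =>
      |(B j * (B j)ᵀ) (nd p x) (nd p y) - Sig x y|)) atTop (𝓝 0))
    (hH : Tendsto (fun j => (∑ u, ∑ w, ((B j * (B j)ᵀ) u w) ^ 2) / (n j : ℝ) ^ 2) atTop (𝓝 0))
    (S : Matrix (Option (Fin d) × Fin k) (Option (Fin d) × Fin k) ℝ)
    (hSk : ∀ p q, S p q = if p.2 = q.2 then Sig p.1 q.1 else 0) (hpd : S.PosDef)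
    (m : ℕ) (s : Option (Fin d) × Fin k → Fin (2 * m ^ 2 + 1)) (ε : ℝ) (hε : 0 < ε) :
    Tendsto (fun j => stdG (Fin (n j) × Fin k) {ξ | ε ≤ |prob (starsF d (G j)) (fun p =>
      ∀ i, qt m (onStar (fun v a => f j v a + ∑ w, B j v w * ξ (w, a)) p i) = s i) -
        (sm X S).real {x | ∀ i, qt m (x i) = s i}|})
      atTop (𝓝 0) :=
  lln_star n hn G hG f B Sig X hX hS hH S hSk hpd {x | ∀ i, qt m (x i) = s i}
    (frontier_cell m s) ε hε

end

end Vale.Agent.P156.H924
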