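import Mathlib

/-! Characteristic functions of empirical measures with Gaussian noise: second moment bound. -/

open MeasureTheory Filter Topology ProbabilityTheory

namespace Vale.Agent.P156.H924

noncomputable section

/-- The standard Gaussian measure on `I → ℝ`. -/
abbrev gs (I : Type*) [Fintype I] : Measure (I → ℝ) := Measure.pi fun _ : I => gaussianReal 0 1

/-- Characteristic function of the standard Gaussian measure. -/
theorem gs_cf {I : Type*} [Fintype I] (q : I → ℝ) :
    ∫ ξ, Complex.exp ((∑ i, q i * ξ i : ℝ) * Complex.I) ∂(gs I) =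
      (Real.exp (-(∑ i, q i ^ 2) / 2) : ℂ) := by
  have h1 : ∀ ξ : I → ℝ, Complex.exp ((∑ i, q i * ξ i : ℝ) * Complex.I) =
      ∏ i, Complex.exp (((q i * ξ i : ℝ) : ℂ) * Complex.I) := by
    intro ξ
    rw [← Complex.exp_sum]
    congr 1
    push_cast
    rw [Finset.sum_mul]
  simp_rw [h1]
  rw [integral_fintype_prod_eq_prod (f := fun i (x : ℝ) =>
    Complex.exp (((q i * x : ℝ) : ℂ) * Complex.I))]
  have h2 : ∀ i, ∫ x : ℝ, Complex.exp (((q i * x : ℝ) : ℂ) * Complex.I) ∂(gaussianReal 0 1) =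
      Complex.exp (-(q i : ℂ) ^ 2 / 2) := by
    intro i
    have := charFun_gaussianReal (μ := 0) (v := 1) (q i)
    rw [charFun_apply_real] at this
    simp only [Complex.ofReal_mul]
    rw [this]
    congr 1
    simp [neg_div]
  simp_rw [h2]
  rw [← Complex.exp_sum]
  push_cast
  congr 1
  rw [← Finset.sum_div, ← Finset.sum_neg_distrib]

theorem abs_exp_sub_exp_le {x y : ℝ} (hx : x ≤ 0) (hy : y ≤ 0) :
    |Real.exp x - Real.exp y| ≤ |x - y| := by
  wlog h : y ≤ x generalizing x y with H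
  · rw [abs_sub_comm, abs_sub_comm x y]
    exact H hy hx (le_of_not_ge h)
  rw [abs_of_nonneg (sub_nonneg.2 (Real.exp_le_exp.2 h)), abs_of_nonneg (sub_nonneg.2 h)]
  have h1 : Real.exp y = Real.exp x * Real.exp (y - x) := by rw [← Real.exp_add]; ring_nf
  have h2 : 1 + (y - x) ≤ Real.exp (y - x) := by
    have := Real.add_one_le_exp (y - x); linarith
  have h3 : Real.exp x ≤ 1 := Real.exp_le_one_iff.2 hx
  have h4 : 0 < Real.exp x := Real.exp_pos x
  rw [h1]
  nlinarith

/-- Second moment of the fluctuations of the characteristic function. -/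
theorem second_moment {I S : Type*} [Fintype I] [Fintype S] (q : S → I → ℝ) (A : S → ℂ)
    (hA : ∀ s, ‖A s‖ ≤ 1) :
    ∫ ξ, ‖∑ s, A s * (Complex.exp ((∑ i, q s i * ξ i : ℝ) * Complex.I) -
        (Real.exp (-(∑ i, q s i ^ 2) / 2) : ℂ))‖ ^ 2 ∂(gs I) ≤
      ∑ s, ∑ s', |∑ i, q s i * q s' i| := by
  set e : S → (I → ℝ) → ℂ := fun s ξ => Complex.exp ((∑ i, q s i * ξ i : ℝ) * Complex.I) with he
  set m : S → ℂ := fun s => (Real.exp (-(∑ i, q s i ^ 2) / 2) : ℂ) with hm
  have hec : ∀ s, Continuous (e s) := by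
    intro s; simp only [he]; fun_prop
  have hen : ∀ s ξ, ‖e s ξ‖ = 1 := by
    intro s ξ; simp only [he]; exact Complex.norm_exp_ofReal_mul_I _
  have hm1 : ∀ s, ‖m s‖ ≤ 1 := by
    intro s
    simp only [hm, Complex.norm_real, Real.norm_eq_abs, abs_of_pos (Real.exp_pos _)]
    rw [Real.exp_le_one_iff]
    have : 0 ≤ ∑ i, q s i ^ 2 := Finset.sum_nonneg fun i _ => sq_nonneg _
    linarith
  have hei : ∀ s, Integrable (e s) (gs I) := by
    intro s
    refine Integrable.of_bound (hec s).aestronglyMeasurable 1 (Eventually.of_forall fun ξ => ?_)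
    rw [hen]
  have hE : ∀ s, ∫ ξ, e s ξ ∂(gs I) = m s := fun s => gs_cf (q s)
  have hE2 : ∀ s s', ∫ ξ, e s ξ * (starRingEnd ℂ) (e s' ξ) ∂(gs I) =
      (Real.exp (-(∑ i, (q s i - q s' i) ^ 2) / 2) : ℂ) := by
    intro s s'
    rw [← gs_cf (fun i => q s i - q s' i)]
    refine integral_congr_ae (Eventually.of_forall fun ξ => ?_)
    simp only [he]
    rw [← Complex.exp_conj, ← Complex.exp_add]
    congr 1
    simp only [map_mul, Complex.conj_ofReal, Complex.conj_I]
    rw [mul_neg, ← sub_eq_add_neg, ← sub_mul]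
    congr 1
    rw [← Complex.ofReal_sub, ← Finset.sum_sub_distrib]
    congr 1
    exact Finset.sum_congr rfl fun i _ => by ring
  have hcross : ∀ s s', ∫ ξ, (e s ξ - m s) * (starRingEnd ℂ) (e s' ξ - m s') ∂(gs I) =
      ((Real.exp (-(∑ i, (q s i - q s' i) ^ 2) / 2) -
        Real.exp (-(∑ i, q s i ^ 2) / 2 + -(∑ i, q s' i ^ 2) / 2) : ℝ) : ℂ) := by
    intro s s'
    have hconj : (starRingEnd ℂ) (m s') = m s' := by
      simp only [hm]; exact Complex.conj_ofReal _
    have hi1 : Integrable (fun ξ => e s ξ * (starRingEnd ℂ) (e s' ξ)) (gs I) := by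
      refine Integrable.of_bound (C := 1) ?_ (Eventually.of_forall fun ξ => ?_)
      · exact ((hec s).mul (Complex.continuous_conj.comp (hec s'))).aestronglyMeasurable
      · rw [norm_mul, RCLike.norm_conj, hen, hen, one_mul]
    have hi2 : Integrable (fun ξ => (starRingEnd ℂ) (e s' ξ)) (gs I) := by
      refine Integrable.of_bound (C := 1) ?_ (Eventually.of_forall fun ξ => ?_)
      · exact (Complex.continuous_conj.comp (hec s')).aestronglyMeasurable
      · rw [RCLike.norm_conj, hen]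
    have h0 : ∀ ξ, (e s ξ - m s) * (starRingEnd ℂ) (e s' ξ - m s') =
        e s ξ * (starRingEnd ℂ) (e s' ξ) - e s ξ * m s' - (m s * (starRingEnd ℂ) (e s' ξ)
          - m s * m s') := by
      intro ξ
      rw [map_sub, hconj]; ring
    simp_rw [h0]
    rw [integral_sub, integral_sub hi1 ((hei s).mul_const _), integral_sub (hi2.const_mul _)
      (integrable_const _), integral_mul_const, integral_const_mul, integral_conj, hE, hE, hE2,
      hconj]
    · simp only [integral_const, probReal_univ, one_smul, sub_self, sub_zero, hm]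
      rw [Real.exp_add]
      push_cast
      ring
    · exact hi1.sub ((hei s).mul_const _)
    · exact (hi2.const_mul _).sub (integrable_const _)
  have hsq : ∀ ξ : I → ℝ, ((‖∑ s, A s * (e s ξ - m s)‖ ^ 2 : ℝ) : ℂ) =
      ∑ s, ∑ s', A s * (starRingEnd ℂ) (A s') *
        ((e s ξ - m s) * (starRingEnd ℂ) (e s' ξ - m s')) := by
    intro ξ
    rw [Complex.ofReal_pow, ← Complex.mul_conj', map_sum, Finset.sum_mul_sum]
    refine Finset.sum_congr rfl fun s _ => Finset.sum_congr rfl fun s' _ => ?_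
    rw [map_mul]; ring
  have hi3 : ∀ s s', Integrable (fun ξ => (e s ξ - m s) * (starRingEnd ℂ) (e s' ξ - m s'))
      (gs I) := by
    intro s s'
    refine Integrable.of_bound (C := 2 * 2) ?_ (Eventually.of_forall fun ξ => ?_)
    · exact (((hec s).sub continuous_const).mul
        (Complex.continuous_conj.comp ((hec s').sub continuous_const))).aestronglyMeasurable
    · rw [norm_mul, RCLike.norm_conj]
      have h1 : ∀ s, ‖e s ξ - m s‖ ≤ 2 := fun s => by
        refine (norm_sub_le _ _).trans ?_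
        have := hm1 s
        rw [hen]; linarith
      exact mul_le_mul (h1 s) (h1 s') (norm_nonneg _) (by norm_num)
  have hmain : ((∫ ξ, ‖∑ s, A s * (e s ξ - m s)‖ ^ 2 ∂(gs I) : ℝ) : ℂ) =
      ∑ s, ∑ s', A s * (starRingEnd ℂ) (A s') *
        ((Real.exp (-(∑ i, (q s i - q s' i) ^ 2) / 2) -
        Real.exp (-(∑ i, q s i ^ 2) / 2 + -(∑ i, q s' i ^ 2) / 2) : ℝ) : ℂ) := by
    rw [← integral_complex_ofReal]
    simp_rw [hsq]
    rw [integral_finsetSum _ fun s _ => integrable_finsetSum _ fun s' _ => (hi3 s s').const_mul _]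
    refine Finset.sum_congr rfl fun s _ => ?_
    rw [integral_finsetSum _ fun s' _ => (hi3 s s').const_mul _]
    refine Finset.sum_congr rfl fun s' _ => ?_
    rw [integral_const_mul, hcross]
  have hnn : 0 ≤ ∫ ξ, ‖∑ s, A s * (e s ξ - m s)‖ ^ 2 ∂(gs I) :=
    integral_nonneg fun ξ => by positivity
  have hnorm : ∫ ξ, ‖∑ s, A s * (e s ξ - m s)‖ ^ 2 ∂(gs I) =
      ‖((∫ ξ, ‖∑ s, A s * (e s ξ - m s)‖ ^ 2 ∂(gs I) : ℝ) : ℂ)‖ := by
    rw [Complex.norm_real, Real.norm_eq_abs, abs_of_nonneg hnn]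
  change ∫ ξ, ‖∑ s, A s * (e s ξ - m s)‖ ^ 2 ∂(gs I) ≤ _
  rw [hnorm, hmain]
  refine (norm_sum_le _ _).trans (Finset.sum_le_sum fun s _ => ?_)
  refine (norm_sum_le _ _).trans (Finset.sum_le_sum fun s' _ => ?_)
  rw [norm_mul, norm_mul, RCLike.norm_conj, Complex.norm_real, Real.norm_eq_abs]
  have h1 : |Real.exp (-(∑ i, (q s i - q s' i) ^ 2) / 2) -
        Real.exp (-(∑ i, q s i ^ 2) / 2 + -(∑ i, q s' i ^ 2) / 2)| ≤
      |∑ i, q s i * q s' i| := by
    have p1 : 0 ≤ ∑ i, (q s i - q s' i) ^ 2 := Finset.sum_nonneg fun i _ => sq_nonneg _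
    have p2 : 0 ≤ ∑ i, q s i ^ 2 := Finset.sum_nonneg fun i _ => sq_nonneg _
    have p3 : 0 ≤ ∑ i, q s' i ^ 2 := Finset.sum_nonneg fun i _ => sq_nonneg _
    refine (abs_exp_sub_exp_le (by linarith) (by linarith)).trans (le_of_eq ?_)
    congr 1
    have : ∑ i, (q s i - q s' i) ^ 2 = ∑ i, q s i ^ 2 + ∑ i, q s' i ^ 2
        - 2 * ∑ i, q s i * q s' i := by
      rw [Finset.mul_sum, ← Finset.sum_add_distrib, ← Finset.sum_sub_distrib]
      exact Finset.sum_congr rfl fun i _ => by ring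
    rw [this]; ring
  calc ‖A s‖ * ‖A s'‖ * _ ≤ 1 * 1 * |∑ i, q s i * q s' i| :=
        mul_le_mul (mul_le_mul (hA s) (hA s') (norm_nonneg _) zero_le_one) h1 (abs_nonneg _)
          (by norm_num)
    _ = _ := by ring

end

end Vale.Agent.P156.H924
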