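import Vale.Agent.P156.H924.Levy
import Vale.Agent.P156.H924.Cf

/-! The law of large numbers for empirical measures of `x + Gaussian noise` (abstract form). -/

open MeasureTheory Filter Topology ProbabilityTheory
open scoped RealInnerProductSpace

namespace Vale.Agent.P156.H924

noncomputable section

/-- The law of `x + C ζ`, `x` of law `X`, `ζ` an independent standard Gaussian vector. -/
def smC {I : Type*} [Fintype I] (X : Measure (I → ℝ)) (C : Matrix I I ℝ) : Measure (I → ℝ) :=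
  (X.prod (gs I)).map (fun p => p.1 + C.mulVec p.2)

theorem measurable_smC {I : Type*} [Fintype I] (C : Matrix I I ℝ) :
    Measurable (fun p : (I → ℝ) × (I → ℝ) => p.1 + C.mulVec p.2) := by
  refine Continuous.measurable ?_
  exact continuous_fst.add (continuous_const.matrix_mulVec continuous_snd)

instance smC_prob {I : Type*} [Fintype I] (X : Measure (I → ℝ)) [IsProbabilityMeasure X]
    (C : Matrix I I ℝ) : IsProbabilityMeasure (smC X C) :=
  Measure.isProbabilityMeasure_map (measurable_smC C).aemeasurable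

theorem inner_toLp {I : Type*} [Fintype I] (x : I → ℝ) (t : EuclideanSpace ℝ I) :
    ⟪(WithLp.toLp 2 x : EuclideanSpace ℝ I), t⟫ = ∑ i, t i * x i := by
  simp [PiLp.inner_apply]

/-- The quadratic form of `C Cᵀ`. -/
theorem quad_eq {I : Type*} [Fintype I] (C : Matrix I I ℝ) (t : I → ℝ) :
    ∑ i, (∑ p, t p * C p i) ^ 2 = ∑ p, ∑ q, t p * t q * (C * C.transpose) p q := by
  have h1 : ∀ i, (∑ p, t p * C p i) ^ 2 = ∑ p, ∑ q, t p * t q * (C p i * C q i) := by
    intro i
    rw [sq, Finset.sum_mul_sum]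
    exact Finset.sum_congr rfl fun p _ => Finset.sum_congr rfl fun q _ => by ring
  simp_rw [h1]
  rw [Finset.sum_comm]
  refine Finset.sum_congr rfl fun p _ => ?_
  rw [Finset.sum_comm]
  refine Finset.sum_congr rfl fun q _ => ?_
  rw [Matrix.mul_apply, Finset.mul_sum]
  rfl

theorem charFun_smC {I : Type*} [Fintype I] (X : Measure (I → ℝ)) [IsProbabilityMeasure X]
    (C : Matrix I I ℝ) (t : EuclideanSpace ℝ I) :
    charFun ((smC X C).map (WithLp.toLp 2 : (I → ℝ) → EuclideanSpace ℝ I)) t =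
      (∫ x, Complex.exp ((∑ i, t i * x i : ℝ) * Complex.I) ∂X) *
        (Real.exp (-(∑ p, ∑ q, t p * t q * (C * C.transpose) p q) / 2) : ℂ) := by
  have hc : Continuous fun z : EuclideanSpace ℝ I => Complex.exp ((⟪z, t⟫ : ℝ) * Complex.I) := by
    fun_prop
  have hm : Measurable (WithLp.toLp 2 : (I → ℝ) → EuclideanSpace ℝ I) :=
    (PiLp.continuous_toLp 2 _).measurable
  have hc' : Continuous fun x : I → ℝ =>
      Complex.exp ((⟪(WithLp.toLp 2 x : EuclideanSpace ℝ I), t⟫ : ℝ) * Complex.I) :=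
    hc.comp (PiLp.continuous_toLp 2 _)
  rw [charFun_apply, integral_map hm.aemeasurable hc.aestronglyMeasurable, smC,
    integral_map (measurable_smC C).aemeasurable hc'.aestronglyMeasurable]
  have h1 : ∀ p : (I → ℝ) × (I → ℝ),
      Complex.exp ((⟪(WithLp.toLp 2 (p.1 + C.mulVec p.2) : EuclideanSpace ℝ I), t⟫ : ℝ) *
        Complex.I) = Complex.exp ((∑ i, t i * p.1 i : ℝ) * Complex.I) *
          Complex.exp ((∑ i, (∑ p, t p * C p i) * p.2 i : ℝ) * Complex.I) := by
    intro p
    rw [← Complex.exp_add, ← add_mul, ← Complex.ofReal_add, inner_toLp]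
    congr 3
    simp only [Pi.add_apply, mul_add, Finset.sum_add_distrib, Matrix.mulVec, dotProduct]
    congr 1
    simp only [Finset.mul_sum, Finset.sum_mul]
    rw [Finset.sum_comm]
    exact Finset.sum_congr rfl fun i _ => Finset.sum_congr rfl fun j _ => by ring
  simp_rw [h1]
  rw [integral_prod_mul (fun x : I → ℝ => Complex.exp ((∑ i, t i * x i : ℝ) * Complex.I))
    (fun ζ : I → ℝ => Complex.exp ((∑ i, (∑ p, t p * C p i) * ζ i : ℝ) * Complex.I)),
    gs_cf, quad_eq]

theorem integral_norm_le_sqrt {Ω : Type*} [MeasurableSpace Ω] (P : Measure Ω)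
    [IsProbabilityMeasure P] (g : Ω → ℂ) (hg : AEStronglyMeasurable g P) (c : ℝ)
    (hc : ∀ ω, ‖g ω‖ ≤ c) (A : ℝ) (hA : ∫ ω, ‖g ω‖ ^ 2 ∂P ≤ A) :
    ∫ ω, ‖g ω‖ ∂P ≤ Real.sqrt A := by
  have hi : Integrable (fun ω => ‖g ω‖) P :=
    Integrable.of_bound hg.norm c (Eventually.of_forall fun ω => by rw [norm_norm]; exact hc ω)
  have hi2 : Integrable (fun ω => ‖g ω‖ ^ 2) P := by
    refine Integrable.of_bound (C := c ^ 2) (hg.norm.pow 2) (Eventually.of_forall fun ω => ?_)
    rw [norm_pow, norm_norm]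
    exact pow_le_pow_left₀ (norm_nonneg _) (hc ω) 2
  set m := ∫ ω, ‖g ω‖ ∂P with hm
  have h0 : 0 ≤ ∫ ω, (‖g ω‖ - m) ^ 2 ∂P := integral_nonneg fun ω => sq_nonneg _
  have h1 : ∫ ω, (‖g ω‖ - m) ^ 2 ∂P = ∫ ω, ‖g ω‖ ^ 2 ∂P - m ^ 2 := by
    have : ∀ ω, (‖g ω‖ - m) ^ 2 = ‖g ω‖ ^ 2 - (2 * m * ‖g ω‖ - m ^ 2) := fun ω => by ring
    simp_rw [this]
    have hi3 : Integrable (fun ω => 2 * m * ‖g ω‖ - m ^ 2) P :=
      (hi.const_mul _).sub (integrable_const _)
    rw [integral_sub hi2 hi3,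
      integral_sub (hi.const_mul _) (integrable_const _), integral_const_mul, ← hm]
    simp
    ring
  refine Real.le_sqrt_of_sq_le ?_
  linarith

variable {J : Type*} {l : Filter J} [l.IsCountablyGenerated] {N K : Type*} [Fintype N] [Fintype K]
  {S V U : J → Type*} [∀ j, Fintype (S j)] [∀ j, Nonempty (S j)] [∀ j, Fintype (U j)]

/-- The noisy values at the nodes. -/
def zz {N K S V U : Type*} [Fintype U] (nd : S → N → V) (x : S → N × K → ℝ)
    (B : Matrix V U ℝ) (ξ : U × K → ℝ) (s : S) : N × K → ℝ :=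
  fun p => x s p + ∑ w, B (nd s p.1) w * ξ (w, p.2)

omit [l.IsCountablyGenerated] [∀ j, Nonempty (S j)] in
theorem main_cf [DecidableEq K] (nd : ∀ j, S j → N → V j) (x : ∀ j, S j → N × K → ℝ)
    (B : ∀ j, Matrix (V j) (U j) ℝ) (Sig : Matrix N N ℝ) (C : Matrix (N × K) (N × K) ℝ)
    (hC : ∀ p q, (C * C.transpose) p q = if p.2 = q.2 then Sig p.1 q.1 else 0)
    (X : Measure (N × K → ℝ)) [IsProbabilityMeasure X]
    (hX : ∀ t : N × K → ℝ, Tendsto (fun j => (Fintype.card (S j) : ℂ)⁻¹ *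
      ∑ s, Complex.exp ((∑ p, t p * x j s p : ℝ) * Complex.I)) l
      (𝓝 (∫ x, Complex.exp ((∑ p, t p * x p : ℝ) * Complex.I) ∂X)))
    (h2 : ∀ a b, Tendsto (fun j => (Fintype.card (S j) : ℝ)⁻¹ *
      ∑ s, |(B j * (B j).transpose) (nd j s a) (nd j s b) - Sig a b|) l (𝓝 0))
    (h3 : ∀ a b, Tendsto (fun j => (Fintype.card (S j) : ℝ)⁻¹ ^ 2 *
      ∑ s, ∑ s', |(B j * (B j).transpose) (nd j s a) (nd j s' b)|) l (𝓝 0))
    (t : EuclideanSpace ℝ (N × K)) :
    Tendsto (fun j => ∫ ξ, ‖cfe (fun s => (WithLp.toLp 2 (zz (nd j) (x j) (B j) ξ s) :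
        EuclideanSpace ℝ (N × K))) t -
      charFun ((smC X C).map (WithLp.toLp 2 : (N × K → ℝ) → EuclideanSpace ℝ (N × K))) t‖
        ∂(gs (U j × K))) l (𝓝 0) := by
  classical
  -- coefficients of the noise
  set q : ∀ j, S j → U j × K → ℝ := fun j s i => ∑ a, t (a, i.2) * B j (nd j s a) i.1 with hq
  set A : ∀ j, S j → ℂ := fun j s => Complex.exp ((∑ p, t p * x j s p : ℝ) * Complex.I) with hA
  set v : ℝ := ∑ c, ∑ a, ∑ b, t (a, c) * t (b, c) * Sig a b with hv
  set M : ℂ := (Real.exp (-v / 2) : ℂ) with hM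
  set Xh : ℂ := ∫ x, Complex.exp ((∑ p, t p * x p : ℝ) * Complex.I) ∂X with hXh
  have hqq : ∀ j s s', ∑ i, q j s i * q j s' i =
      ∑ c, ∑ a, ∑ b, t (a, c) * t (b, c) * (B j * (B j).transpose) (nd j s a) (nd j s' b) := by
    intro j s s'
    rw [Fintype.sum_prod_type_right]
    refine Finset.sum_congr rfl fun c _ => ?_
    simp only [hq]
    simp_rw [Finset.sum_mul_sum]
    rw [Finset.sum_comm]
    refine Finset.sum_congr rfl fun a _ => ?_
    rw [Finset.sum_comm]
    refine Finset.sum_congr rfl fun b _ => ?_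
    rw [Matrix.mul_apply, Finset.mul_sum]
    refine Finset.sum_congr rfl fun w _ => ?_
    rw [Matrix.transpose_apply]
    ring
  have hvv : v = ∑ p, ∑ q, t p * t q * (C * C.transpose) p q := by
    simp_rw [hC]
    rw [Fintype.sum_prod_type_right, hv]
    refine Finset.sum_congr rfl fun c _ => Finset.sum_congr rfl fun a _ => ?_
    rw [Fintype.sum_prod_type]
    refine Finset.sum_congr rfl fun b _ => ?_
    simp
  have hv0 : 0 ≤ v := by
    rw [hvv, ← quad_eq]
    exact Finset.sum_nonneg fun i _ => sq_nonneg _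
  have hcf : charFun ((smC X C).map
      (WithLp.toLp 2 : (N × K → ℝ) → EuclideanSpace ℝ (N × K))) t = Xh * M := by
    rw [charFun_smC, ← hvv]
  have hAn : ∀ j s, ‖A j s‖ = 1 := fun j s => Complex.norm_exp_ofReal_mul_I _
  -- the noisy characteristic function
  have hinner : ∀ j (ξ : U j × K → ℝ) (s : S j),
      ⟪(WithLp.toLp 2 (zz (nd j) (x j) (B j) ξ s) : EuclideanSpace ℝ (N × K)), t⟫ =
        ∑ p, t p * x j s p + ∑ i, q j s i * ξ i := by
    intro j ξ s
    rw [inner_toLp]
    simp only [zz, mul_add, Finset.sum_add_distrib]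
    congr 1
    rw [Fintype.sum_prod_type_right, Fintype.sum_prod_type_right]
    refine Finset.sum_congr rfl fun c _ => ?_
    simp only [hq, Finset.sum_mul, Finset.mul_sum]
    rw [Finset.sum_comm]
    exact Finset.sum_congr rfl fun w _ => Finset.sum_congr rfl fun a _ => by ring
  have hcfe : ∀ j (ξ : U j × K → ℝ),
      cfe (fun s => (WithLp.toLp 2 (zz (nd j) (x j) (B j) ξ s) : EuclideanSpace ℝ (N × K))) t
        - Xh * M =
      (Fintype.card (S j) : ℂ)⁻¹ * ∑ s, A j s *
        (Complex.exp ((∑ i, q j s i * ξ i : ℝ) * Complex.I) -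
          (Real.exp (-(∑ i, q j s i ^ 2) / 2) : ℂ)) +
      ((Fintype.card (S j) : ℂ)⁻¹ * ∑ s, A j s *
        ((Real.exp (-(∑ i, q j s i ^ 2) / 2) : ℂ) - M) +
      ((Fintype.card (S j) : ℂ)⁻¹ * (∑ s, A j s) - Xh) * M) := by
    intro j ξ
    have h1 : cfe (fun s => (WithLp.toLp 2 (zz (nd j) (x j) (B j) ξ s) :
        EuclideanSpace ℝ (N × K))) t = (Fintype.card (S j) : ℂ)⁻¹ * ∑ s, A j s *
          Complex.exp ((∑ i, q j s i * ξ i : ℝ) * Complex.I) := by
      unfold cfe
      congr 1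
      refine Finset.sum_congr rfl fun s _ => ?_
      rw [hinner, Complex.ofReal_add, add_mul, Complex.exp_add]
    rw [h1]
    simp only [mul_sub, Finset.sum_sub_distrib, ← Finset.sum_mul]
    ring
  -- three bounds
  have b1 : ∀ j, ∫ ξ, ‖(Fintype.card (S j) : ℂ)⁻¹ * ∑ s, A j s *
        (Complex.exp ((∑ i, q j s i * ξ i : ℝ) * Complex.I) -
          (Real.exp (-(∑ i, q j s i ^ 2) / 2) : ℂ))‖ ∂(gs (U j × K)) ≤
      Real.sqrt ((Fintype.card (S j) : ℝ)⁻¹ ^ 2 * ∑ s, ∑ s', |∑ i, q j s i * q j s' i|) := by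
    intro j
    refine integral_norm_le_sqrt _ _ ?_ ((Fintype.card (S j) : ℝ)⁻¹ * ∑ s : S j, 2) ?_ _ ?_
    · refine Continuous.aestronglyMeasurable ?_
      fun_prop
    · intro ξ
      rw [norm_mul, norm_inv, Complex.norm_natCast]
      refine mul_le_mul_of_nonneg_left ?_ (by positivity)
      refine (norm_sum_le _ _).trans (Finset.sum_le_sum fun s _ => ?_)
      rw [norm_mul, hAn, one_mul]
      refine (norm_sub_le _ _).trans ?_
      rw [Complex.norm_exp_ofReal_mul_I, Complex.norm_real, Real.norm_eq_abs,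
        abs_of_pos (Real.exp_pos _)]
      have : Real.exp (-(∑ i, q j s i ^ 2) / 2) ≤ 1 := by
        rw [Real.exp_le_one_iff]
        have : 0 ≤ ∑ i, q j s i ^ 2 := Finset.sum_nonneg fun i _ => sq_nonneg _
        linarith
      linarith
    · simp_rw [norm_mul _ (∑ s, _), mul_pow]
      rw [integral_const_mul, norm_inv, Complex.norm_natCast]
      refine mul_le_mul_of_nonneg_left ?_ (by positivity)
      exact second_moment (q j) (A j) (fun s => (hAn j s).le)
  have b2 : ∀ j, ‖(Fintype.card (S j) : ℂ)⁻¹ * ∑ s, A j s *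
        ((Real.exp (-(∑ i, q j s i ^ 2) / 2) : ℂ) - M)‖ ≤
      (Fintype.card (S j) : ℝ)⁻¹ * ∑ s, |∑ i, q j s i * q j s i - v| := by
    intro j
    rw [norm_mul, norm_inv, Complex.norm_natCast]
    refine mul_le_mul_of_nonneg_left ?_ (by positivity)
    refine (norm_sum_le _ _).trans (Finset.sum_le_sum fun s _ => ?_)
    rw [norm_mul, hAn, one_mul, hM, ← Complex.ofReal_sub, Complex.norm_real, Real.norm_eq_abs]
    have p2 : 0 ≤ ∑ i, q j s i ^ 2 := Finset.sum_nonneg fun i _ => sq_nonneg _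
    refine (abs_exp_sub_exp_le (by linarith) (by linarith)).trans ?_
    have e1 : -(∑ i, q j s i ^ 2) / 2 - -v / 2 = -(1/2) * (∑ i, q j s i * q j s i - v) := by
      simp only [sq]; ring
    rw [e1, abs_mul]
    have : |(-(1/2) : ℝ)| ≤ 1 := by rw [abs_neg]; norm_num [abs_of_pos]
    calc _ ≤ 1 * |∑ i, q j s i * q j s i - v| := mul_le_mul_of_nonneg_right this (abs_nonneg _)
      _ = _ := one_mul _
  have hMn : ‖M‖ ≤ 1 := by
    rw [hM, Complex.norm_real, Real.norm_eq_abs, abs_of_pos (Real.exp_pos _),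
      Real.exp_le_one_iff]
    linarith
  have btot : ∀ j, ∫ ξ, ‖cfe (fun s => (WithLp.toLp 2 (zz (nd j) (x j) (B j) ξ s) :
        EuclideanSpace ℝ (N × K))) t -
      charFun ((smC X C).map (WithLp.toLp 2 : (N × K → ℝ) → EuclideanSpace ℝ (N × K))) t‖
        ∂(gs (U j × K)) ≤
      Real.sqrt ((Fintype.card (S j) : ℝ)⁻¹ ^ 2 * ∑ s, ∑ s', |∑ i, q j s i * q j s' i|) +
      ((Fintype.card (S j) : ℝ)⁻¹ * ∑ s, |∑ i, q j s i * q j s i - v| +
        ‖(Fintype.card (S j) : ℂ)⁻¹ * (∑ s, A j s) - Xh‖) := by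
    intro j
    rw [hcf]
    simp_rw [hcfe j]
    have hcont : Continuous fun ξ : U j × K → ℝ => (Fintype.card (S j) : ℂ)⁻¹ * ∑ s, A j s *
        (Complex.exp ((∑ i, q j s i * ξ i : ℝ) * Complex.I) -
          (Real.exp (-(∑ i, q j s i ^ 2) / 2) : ℂ)) := by fun_prop
    have hbd : ∀ ξ : U j × K → ℝ, ‖(Fintype.card (S j) : ℂ)⁻¹ * ∑ s, A j s *
        (Complex.exp ((∑ i, q j s i * ξ i : ℝ) * Complex.I) -
          (Real.exp (-(∑ i, q j s i ^ 2) / 2) : ℂ))‖ ≤ (Fintype.card (S j) : ℝ)⁻¹ *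
            ∑ s : S j, 2 := by
      intro ξ
      rw [norm_mul, norm_inv, Complex.norm_natCast]
      refine mul_le_mul_of_nonneg_left ?_ (by positivity)
      refine (norm_sum_le _ _).trans (Finset.sum_le_sum fun s _ => ?_)
      rw [norm_mul, hAn, one_mul]
      refine (norm_sub_le _ _).trans ?_
      rw [Complex.norm_exp_ofReal_mul_I, Complex.norm_real, Real.norm_eq_abs,
        abs_of_pos (Real.exp_pos _)]
      have : Real.exp (-(∑ i, q j s i ^ 2) / 2) ≤ 1 := by
        rw [Real.exp_le_one_iff]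
        have : 0 ≤ ∑ i, q j s i ^ 2 := Finset.sum_nonneg fun i _ => sq_nonneg _
        linarith
      linarith
    have hI1 : Integrable (fun ξ : U j × K → ℝ => ‖(Fintype.card (S j) : ℂ)⁻¹ * ∑ s, A j s *
        (Complex.exp ((∑ i, q j s i * ξ i : ℝ) * Complex.I) -
          (Real.exp (-(∑ i, q j s i ^ 2) / 2) : ℂ))‖) (gs (U j × K)) :=
      Integrable.of_bound hcont.norm.aestronglyMeasurable _
        (Eventually.of_forall fun ξ => by rw [norm_norm]; exact hbd ξ)
    calc _ ≤ ∫ ξ, (‖(Fintype.card (S j) : ℂ)⁻¹ * ∑ s, A j s *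
        (Complex.exp ((∑ i, q j s i * ξ i : ℝ) * Complex.I) -
          (Real.exp (-(∑ i, q j s i ^ 2) / 2) : ℂ))‖ +
          ‖(Fintype.card (S j) : ℂ)⁻¹ * ∑ s, A j s *
        ((Real.exp (-(∑ i, q j s i ^ 2) / 2) : ℂ) - M) +
      ((Fintype.card (S j) : ℂ)⁻¹ * (∑ s, A j s) - Xh) * M‖) ∂(gs (U j × K)) := by
          refine integral_mono_of_nonneg (Eventually.of_forall fun ξ => norm_nonneg _)
            (hI1.add (integrable_const _)) (Eventually.of_forall fun ξ => norm_add_le _ _)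
      _ ≤ _ := by
          rw [integral_add hI1 (integrable_const _)]
          refine add_le_add (b1 j) ?_
          simp only [integral_const, probReal_univ, one_smul]
          refine (norm_add_le _ _).trans (add_le_add (b2 j) ?_)
          rw [norm_mul]
          exact mul_le_of_le_one_right (norm_nonneg _) hMn
  -- limits
  have l1 : Tendsto (fun j => (Fintype.card (S j) : ℝ)⁻¹ ^ 2 *
      ∑ s, ∑ s', |∑ i, q j s i * q j s' i|) l (𝓝 0) := by
    have hT : Tendsto (fun j => ∑ c, ∑ a, ∑ b, |t (a, c) * t (b, c)| *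
        ((Fintype.card (S j) : ℝ)⁻¹ ^ 2 *
          ∑ s, ∑ s', |(B j * (B j).transpose) (nd j s a) (nd j s' b)|)) l (𝓝 0) := by
      have : (0:ℝ) = ∑ c : K, ∑ a : N, ∑ b : N, |t (a, c) * t (b, c)| * 0 := by simp
      rw [this]
      exact tendsto_finsetSum _ fun c _ => tendsto_finsetSum _ fun a _ =>
        tendsto_finsetSum _ fun b _ => (h3 a b).const_mul _
    refine squeeze_zero (fun j => by positivity) (fun j => ?_) hT
    calc (Fintype.card (S j) : ℝ)⁻¹ ^ 2 * ∑ s, ∑ s', |∑ i, q j s i * q j s' i|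
        ≤ (Fintype.card (S j) : ℝ)⁻¹ ^ 2 * ∑ s, ∑ s', ∑ c, ∑ a, ∑ b, |t (a, c) * t (b, c)| *
          |(B j * (B j).transpose) (nd j s a) (nd j s' b)| := by
          refine mul_le_mul_of_nonneg_left (Finset.sum_le_sum fun s _ =>
            Finset.sum_le_sum fun s' _ => ?_) (by positivity)
          rw [hqq]
          refine (Finset.abs_sum_le_sum_abs _ _).trans (Finset.sum_le_sum fun c _ => ?_)
          refine (Finset.abs_sum_le_sum_abs _ _).trans (Finset.sum_le_sum fun a _ => ?_)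
          refine (Finset.abs_sum_le_sum_abs _ _).trans (Finset.sum_le_sum fun b _ => ?_)
          rw [abs_mul]
      _ = _ := by
          simp only [Finset.mul_sum]
          rw [Finset.sum_congr rfl fun s _ => Finset.sum_comm]
          rw [Finset.sum_comm]
          refine Finset.sum_congr rfl fun c _ => ?_
          rw [Finset.sum_congr rfl fun s _ => Finset.sum_comm]
          rw [Finset.sum_comm]
          refine Finset.sum_congr rfl fun a _ => ?_
          rw [Finset.sum_congr rfl fun s _ => Finset.sum_comm]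
          rw [Finset.sum_comm]
          refine Finset.sum_congr rfl fun b _ => ?_
          refine Finset.sum_congr rfl fun s _ => Finset.sum_congr rfl fun s' _ => by ring
  have l2 : Tendsto (fun j => (Fintype.card (S j) : ℝ)⁻¹ *
      ∑ s, |∑ i, q j s i * q j s i - v|) l (𝓝 0) := by
    have hT : Tendsto (fun j => ∑ c, ∑ a, ∑ b, |t (a, c) * t (b, c)| *
        ((Fintype.card (S j) : ℝ)⁻¹ *
          ∑ s, |(B j * (B j).transpose) (nd j s a) (nd j s b) - Sig a b|)) l (𝓝 0) := by
      have : (0:ℝ) = ∑ c : K, ∑ a : N, ∑ b : N, |t (a, c) * t (b, c)| * 0 := by simp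
      rw [this]
      exact tendsto_finsetSum _ fun c _ => tendsto_finsetSum _ fun a _ =>
        tendsto_finsetSum _ fun b _ => (h2 a b).const_mul _
    refine squeeze_zero (fun j => by positivity) (fun j => ?_) hT
    calc (Fintype.card (S j) : ℝ)⁻¹ * ∑ s, |∑ i, q j s i * q j s i - v|
        ≤ (Fintype.card (S j) : ℝ)⁻¹ * ∑ s, ∑ c, ∑ a, ∑ b, |t (a, c) * t (b, c)| *
          |(B j * (B j).transpose) (nd j s a) (nd j s b) - Sig a b| := by
          refine mul_le_mul_of_nonneg_left (Finset.sum_le_sum fun s _ => ?_) (by positivity)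
          rw [hqq, hv]
          simp only [← Finset.sum_sub_distrib, ← mul_sub]
          refine (Finset.abs_sum_le_sum_abs _ _).trans (Finset.sum_le_sum fun c _ => ?_)
          refine (Finset.abs_sum_le_sum_abs _ _).trans (Finset.sum_le_sum fun a _ => ?_)
          refine (Finset.abs_sum_le_sum_abs _ _).trans (Finset.sum_le_sum fun b _ => ?_)
          rw [abs_mul]
      _ = _ := by
          simp only [Finset.mul_sum]
          rw [Finset.sum_comm]
          refine Finset.sum_congr rfl fun c _ => ?_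
          rw [Finset.sum_comm]
          refine Finset.sum_congr rfl fun a _ => ?_
          rw [Finset.sum_comm]
          refine Finset.sum_congr rfl fun b _ => ?_
          refine Finset.sum_congr rfl fun s _ => by ring
  have l3 : Tendsto (fun j => ‖(Fintype.card (S j) : ℂ)⁻¹ * (∑ s, A j s) - Xh‖) l (𝓝 0) := by
    have := (hX t).sub_const Xh
    rw [hXh, sub_self] at this
    have h' := this.norm
    rw [norm_zero] at h'
    exact h'
  have l4 := (l1.sqrt.add (l2.add l3))
  rw [Real.sqrt_zero, add_zero, add_zero] at l4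
  exact squeeze_zero (fun j => integral_nonneg fun ξ => norm_nonneg _) btot l4

/-- The law of large numbers (abstract form). -/
theorem lln [DecidableEq K] (nd : ∀ j, S j → N → V j) (x : ∀ j, S j → N × K → ℝ)
    (B : ∀ j, Matrix (V j) (U j) ℝ) (Sig : Matrix N N ℝ) (C : Matrix (N × K) (N × K) ℝ)
    (hC : ∀ p q, (C * C.transpose) p q = if p.2 = q.2 then Sig p.1 q.1 else 0)
    (X : Measure (N × K → ℝ)) [IsProbabilityMeasure X]
    (hX : ∀ t : N × K → ℝ, Tendsto (fun j => (Fintype.card (S j) : ℂ)⁻¹ *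
      ∑ s, Complex.exp ((∑ p, t p * x j s p : ℝ) * Complex.I)) l
      (𝓝 (∫ x, Complex.exp ((∑ p, t p * x p : ℝ) * Complex.I) ∂X)))
    (h2 : ∀ a b, Tendsto (fun j => (Fintype.card (S j) : ℝ)⁻¹ *
      ∑ s, |(B j * (B j).transpose) (nd j s a) (nd j s b) - Sig a b|) l (𝓝 0))
    (h3 : ∀ a b, Tendsto (fun j => (Fintype.card (S j) : ℝ)⁻¹ ^ 2 *
      ∑ s, ∑ s', |(B j * (B j).transpose) (nd j s a) (nd j s' b)|) l (𝓝 0))
    (W : Set (N × K → ℝ)) (hW : smC X C (frontier W) = 0) (ε : ℝ) (hε : 0 < ε) :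
    Tendsto (fun j => gs (U j × K) {ξ | ε ≤
      |frac (fun s => zz (nd j) (x j) (B j) ξ s ∈ W) - (smC X C).real W|}) l (𝓝 0) := by
  set e : (N × K → ℝ) → EuclideanSpace ℝ (N × K) := WithLp.toLp 2 with he
  have hcont : Continuous e := PiLp.continuous_toLp 2 _
  have hcont' : Continuous (WithLp.ofLp : EuclideanSpace ℝ (N × K) → (N × K → ℝ)) :=
    PiLp.continuous_ofLp 2 _
  let hom : (N × K → ℝ) ≃ₜ EuclideanSpace ℝ (N × K) :=
    { toFun := e
      invFun := WithLp.ofLp
      left_inv := fun x => rfl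
      right_inv := fun x => rfl
      continuous_toFun := hcont
      continuous_invFun := hcont' }
  have hmeas : Measurable e := hcont.measurable
  have hemb : MeasurableEmbedding e := hom.measurableEmbedding
  have : IsProbabilityMeasure ((smC X C).map e) :=
    Measure.isProbabilityMeasure_map hmeas.aemeasurable
  have hfr : ((smC X C).map e) (frontier (WithLp.ofLp ⁻¹' W)) = 0 := by
    rw [hemb.map_apply]
    have : e ⁻¹' frontier ((WithLp.ofLp : EuclideanSpace ℝ (N × K) → (N × K → ℝ)) ⁻¹' W) =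
        frontier W := by
      have h1 := hom.preimage_frontier ((WithLp.ofLp : EuclideanSpace ℝ (N × K) → _) ⁻¹' W)
      exact h1
    rw [this, hW]
  have hreal : ((smC X C).map e).real (WithLp.ofLp ⁻¹' W) = (smC X C).real W := by
    unfold Measure.real
    rw [hemb.map_apply]
    rfl
  have hZ : ∀ j (s : S j), Measurable fun ξ : U j × K → ℝ => e (zz (nd j) (x j) (B j) ξ s) := by
    intro j s
    refine hmeas.comp ?_
    unfold zz
    refine Continuous.measurable ?_
    fun_prop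
  have := tendsto_frac (fun j => gs (U j × K))
    (fun j ξ s => e (zz (nd j) (x j) (B j) ξ s)) hZ ((smC X C).map e)
    (main_cf nd x B Sig C hC X hX h2 h3) (WithLp.ofLp ⁻¹' W) hfr ε hε
  rw [hreal] at this
  exact this

end

end Vale.Agent.P156.H924
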