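import Mathlib

/-! From convergence in probability of characteristic functions of random empirical measures to
convergence in probability of the mass of sets with null boundary. -/

open MeasureTheory Filter Topology
open scoped RealInnerProductSpace ENNReal FourierTransform SchwartzMap

namespace Vale.Agent.P156.H924

noncomputable section

variable {F : Type*} [NormedAddCommGroup F] [InnerProductSpace ℝ F] [FiniteDimensional ℝ F]
  [MeasurableSpace F] [BorelSpace F]

/-- Fourier representation of a Schwartz function. -/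
theorem schwartz_repr (φ : 𝓢(F, ℂ)) (x : F) :
    φ x = ∫ t : F, Complex.exp ((⟪x, (2 * Real.pi) • t⟫ : ℝ) * Complex.I) * (𝓕 φ) t := by
  conv_lhs => rw [← FourierTransform.fourierInv_fourier_eq (F := 𝓢(F, ℂ)) φ]
  rw [SchwartzMap.fourierInv_coe, Real.fourierInv_eq']
  refine integral_congr_ae (Eventually.of_forall fun t => ?_)
  simp only [smul_eq_mul]
  rw [real_inner_smul_right, real_inner_comm]

/-- The characteristic function of the uniform measure on the points `z s`. -/
def cfe {S : Type*} [Fintype S] (z : S → F) (t : F) : ℂ :=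
  (Fintype.card S : ℂ)⁻¹ * ∑ s, Complex.exp ((⟪z s, t⟫ : ℝ) * Complex.I)

/-- The fraction of the `s` satisfying `p`. -/
def frac {S : Type*} [Fintype S] (p : S → Prop) : ℝ := by
  classical exact ((Finset.univ.filter p).card : ℝ) / (Fintype.card S : ℝ)

theorem frac_nonneg {S : Type*} [Fintype S] (p : S → Prop) : 0 ≤ frac p := by
  unfold frac; positivity

omit [FiniteDimensional ℝ F] [MeasurableSpace F] [BorelSpace F] in
theorem norm_cfe_le {S : Type*} [Fintype S] (z : S → F) (t : F) : ‖cfe z t‖ ≤ 1 := by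
  unfold cfe
  rcases isEmpty_or_nonempty S with h | h
  · simp
  rw [norm_mul, norm_inv, Complex.norm_natCast]
  have h1 : ‖∑ s, Complex.exp ((⟪z s, t⟫ : ℝ) * Complex.I)‖ ≤ Fintype.card S := by
    refine (norm_sum_le _ _).trans ?_
    simp [Complex.norm_exp_ofReal_mul_I]
  have h2 : (0:ℝ) < Fintype.card S := by exact_mod_cast Fintype.card_pos
  rw [inv_mul_le_iff₀ h2]
  simpa using h1

theorem emp_schwartz {S : Type*} [Fintype S] (z : S → F) (φ : 𝓢(F, ℂ)) :
    (Fintype.card S : ℂ)⁻¹ * ∑ s, φ (z s) =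
      ∫ t : F, cfe z ((2 * Real.pi) • t) * (𝓕 φ) t := by
  have hI : ∀ s : S, Integrable (fun t : F =>
      Complex.exp ((⟪z s, (2 * Real.pi) • t⟫ : ℝ) * Complex.I) * (𝓕 φ) t) := by
    intro s
    refine ((𝓕 φ).integrable (μ := volume)).bdd_mul (c := 1) ?_ ?_
    · refine Continuous.aestronglyMeasurable ?_
      fun_prop
    · refine Eventually.of_forall fun t => ?_
      rw [Complex.norm_exp_ofReal_mul_I]
  simp_rw [schwartz_repr φ]
  rw [← integral_finsetSum _ (fun s _ => hI s), ← integral_const_mul]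
  refine integral_congr_ae (Eventually.of_forall fun t => ?_)
  simp only [cfe, Finset.sum_mul, mul_assoc]

theorem meas_schwartz (μ : Measure F) [IsProbabilityMeasure μ] (φ : 𝓢(F, ℂ)) :
    ∫ x, φ x ∂μ = ∫ t : F, charFun μ ((2 * Real.pi) • t) * (𝓕 φ) t := by
  simp_rw [schwartz_repr φ]
  rw [integral_integral_swap]
  · refine integral_congr_ae (Eventually.of_forall fun t => ?_)
    simp only [charFun_apply]
    rw [integral_mul_const]
  · have h1 : Integrable (fun p : F × F => (𝓕 φ) p.2) (μ.prod volume) :=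
      Integrable.comp_snd ((𝓕 φ).integrable (μ := volume)) μ
    refine h1.bdd_mul (c := 1) ?_ ?_
    · refine Continuous.aestronglyMeasurable ?_
      fun_prop
    · refine Eventually.of_forall fun t => ?_
      rw [Complex.norm_exp_ofReal_mul_I]

/-- A family of random empirical measures whose characteristic functions converge in mean. -/
theorem tendsto_schwartz {J : Type*} {l : Filter J} [l.IsCountablyGenerated]
    {Ω : J → Type*} [∀ j, MeasurableSpace (Ω j)] (P : ∀ j, Measure (Ω j))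
    [∀ j, IsProbabilityMeasure (P j)] {S : J → Type*} [∀ j, Fintype (S j)]
    (Z : ∀ j, Ω j → S j → F) (hZ : ∀ j s, Measurable fun ω => Z j ω s)
    (μ : Measure F) [IsProbabilityMeasure μ]
    (h : ∀ t : F, Tendsto (fun j => ∫ ω, ‖cfe (Z j ω) t - charFun μ t‖ ∂(P j)) l (𝓝 0))
    (φ : 𝓢(F, ℂ)) :
    Tendsto (fun j => ∫ ω, ‖(Fintype.card (S j) : ℂ)⁻¹ * ∑ s, φ (Z j ω s) - ∫ x, φ x ∂μ‖ ∂(P j))
      l (𝓝 0) := by
  have hmeas : ∀ j, Measurable (fun p : Ω j × F =>
      cfe (Z j p.1) ((2 * Real.pi) • p.2) - charFun μ ((2 * Real.pi) • p.2)) := by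
    intro j
    refine Measurable.sub ?_ ?_
    · unfold cfe
      refine Measurable.const_mul ?_ _
      refine Finset.measurable_sum _ fun s _ => ?_
      have h1 : Measurable fun p : Ω j × F => Z j p.1 s := (hZ j s).comp measurable_fst
      fun_prop
    · exact measurable_charFun.comp (by fun_prop)
  have hint : ∀ j, Integrable (fun p : Ω j × F =>
      ‖(cfe (Z j p.1) ((2 * Real.pi) • p.2) - charFun μ ((2 * Real.pi) • p.2)) * (𝓕 φ) p.2‖)
      ((P j).prod volume) := by
    intro j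
    have h1 : Integrable (fun p : Ω j × F => (𝓕 φ) p.2) ((P j).prod volume) :=
      Integrable.comp_snd ((𝓕 φ).integrable (μ := volume)) (P j)
    refine (h1.bdd_mul (c := 2) (hmeas j).aestronglyMeasurable ?_).norm
    refine Eventually.of_forall fun p => ?_
    refine (norm_sub_le _ _).trans ?_
    have := norm_cfe_le (Z j p.1) ((2 * Real.pi) • p.2)
    have := norm_charFun_le_one (μ := μ) ((2 * Real.pi) • p.2)
    linarith
  have hbound : ∀ j, ∫ ω, ‖(Fintype.card (S j) : ℂ)⁻¹ * ∑ s, φ (Z j ω s) - ∫ x, φ x ∂μ‖ ∂(P j) ≤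
      ∫ t : F, (∫ ω, ‖cfe (Z j ω) ((2 * Real.pi) • t) - charFun μ ((2 * Real.pi) • t)‖ ∂(P j)) *
        ‖(𝓕 φ) t‖ := by
    intro j
    have hφ : Integrable (fun t : F => (𝓕 φ) t) := (𝓕 φ).integrable
    have e1 : ∀ ω, (Fintype.card (S j) : ℂ)⁻¹ * ∑ s, φ (Z j ω s) - ∫ x, φ x ∂μ =
        ∫ t : F, (cfe (Z j ω) ((2 * Real.pi) • t) - charFun μ ((2 * Real.pi) • t)) * (𝓕 φ) t := by
      intro ω
      rw [emp_schwartz, meas_schwartz, ← integral_sub]
      · simp only [sub_mul]
      · refine hφ.bdd_mul (c := 1) ?_ (Eventually.of_forall fun t => norm_cfe_le _ _)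
        unfold cfe
        refine Continuous.aestronglyMeasurable ?_
        fun_prop
      · refine hφ.bdd_mul (c := 1) ?_ (Eventually.of_forall fun t => norm_charFun_le_one _)
        exact (measurable_charFun.comp (by fun_prop)).aestronglyMeasurable
    calc ∫ ω, ‖(Fintype.card (S j) : ℂ)⁻¹ * ∑ s, φ (Z j ω s) - ∫ x, φ x ∂μ‖ ∂(P j)
        ≤ ∫ ω, (∫ t : F, ‖(cfe (Z j ω) ((2 * Real.pi) • t) - charFun μ ((2 * Real.pi) • t)) *
            (𝓕 φ) t‖) ∂(P j) := by
          refine integral_mono_of_nonneg (Eventually.of_forall fun ω => norm_nonneg _)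
            (hint j).integral_prod_left (Eventually.of_forall fun ω => ?_)
          simp only [e1 ω]
          exact norm_integral_le_integral_norm _
      _ = ∫ t : F, (∫ ω, ‖(cfe (Z j ω) ((2 * Real.pi) • t) - charFun μ ((2 * Real.pi) • t)) *
            (𝓕 φ) t‖ ∂(P j)) := integral_integral_swap (hint j)
      _ = _ := by
          refine integral_congr_ae (Eventually.of_forall fun t => ?_)
          simp only [norm_mul]
          rw [integral_mul_const]
  have hlim : Tendsto (fun j => ∫ t : F,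
      (∫ ω, ‖cfe (Z j ω) ((2 * Real.pi) • t) - charFun μ ((2 * Real.pi) • t)‖ ∂(P j)) *
        ‖(𝓕 φ) t‖) l (𝓝 (∫ t : F, (0:ℝ))) := by
    refine tendsto_integral_filter_of_dominated_convergence (fun t => 2 * ‖(𝓕 φ) t‖) ?_ ?_ ?_ ?_
    · refine Eventually.of_forall fun j => ?_
      refine AEStronglyMeasurable.mul ?_ ((𝓕 φ).continuous.norm.aestronglyMeasurable)
      exact ((hmeas j).norm.stronglyMeasurable.integral_prod_left').aestronglyMeasurable
    · refine Eventually.of_forall fun j => Eventually.of_forall fun t => ?_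
      rw [norm_mul, norm_norm]
      refine mul_le_mul_of_nonneg_right ?_ (norm_nonneg _)
      refine (norm_integral_le_of_norm_le_const (C := 2) (Eventually.of_forall fun ω => ?_)).trans ?_
      · rw [norm_norm]
        refine (norm_sub_le _ _).trans ?_
        have := norm_cfe_le (Z j ω) ((2 * Real.pi) • t)
        have := norm_charFun_le_one (μ := μ) ((2 * Real.pi) • t)
        linarith
      · simp
    · exact ((𝓕 φ).integrable (μ := volume)).norm.const_mul 2
    · refine Eventually.of_forall fun t => ?_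
      have := (h ((2 * Real.pi) • t)).mul_const ‖(𝓕 φ) t‖
      simpa using this
  rw [integral_zero] at hlim
  exact squeeze_zero (fun j => integral_nonneg fun ω => norm_nonneg _) hbound hlim

omit [MeasurableSpace F] [BorelSpace F] in
theorem exists_bump (K U : Set F) (hK : IsCompact K) (hU : IsOpen U) (hKU : K ⊆ U) :
    ∃ φ : F → ℝ, ContDiff ℝ ((⊤ : ℕ∞) : WithTop ℕ∞) φ ∧ HasCompactSupport φ ∧ (∀ x, 0 ≤ φ x) ∧ (∀ x, φ x ≤ 1) ∧
      (∀ x ∈ K, φ x = 1) ∧ ∀ x, x ∉ U → φ x = 0 := by
  obtain ⟨L, hL, hKL, hLU⟩ := exists_compact_between hK hU hKU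
  obtain ⟨f, hf0, hf1, hf⟩ := exists_contMDiffMap_zero_one_of_isClosed (n := (⊤ : ℕ∞))
    (modelWithCornersSelf ℝ F) (s := (interior L)ᶜ) (t := K) isOpen_interior.isClosed_compl
    hK.isClosed (Set.disjoint_left.2 fun x hx hxK => hx (hKL hxK))
  refine ⟨f, f.contMDiff.contDiff, ?_, fun x => (hf x).1, fun x => (hf x).2, fun x hx => hf1 hx,
    fun x hx => hf0 fun hx' => hx (hLU (interior_subset hx'))⟩
  refine HasCompactSupport.intro hL fun x hx => hf0 fun hx' => hx (interior_subset hx')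

theorem frac_eq_sum {S : Type*} [Fintype S] (p : S → Prop) [DecidablePred p] :
    frac p = (Fintype.card S : ℝ)⁻¹ * ∑ s, if p s then (1:ℝ) else 0 := by
  unfold frac
  rw [Finset.sum_boole, div_eq_inv_mul]
  congr!

theorem frac_mono {S : Type*} [Fintype S] {p q : S → Prop} (h : ∀ s, p s → q s) :
    frac p ≤ frac q := by
  classical
  rw [frac_eq_sum, frac_eq_sum]
  refine mul_le_mul_of_nonneg_left (Finset.sum_le_sum fun s _ => ?_) (by positivity)
  by_cases h1 : p s
  · simp [h1, h s h1]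
  · simp only [h1, if_false]
    split_ifs <;> norm_num

theorem frac_not {S : Type*} [Fintype S] [Nonempty S] (p : S → Prop) :
    frac (fun s => ¬ p s) = 1 - frac p := by
  classical
  rw [frac_eq_sum, frac_eq_sum]
  have h2 : (Fintype.card S : ℝ) ≠ 0 := by exact_mod_cast Fintype.card_ne_zero
  rw [eq_sub_iff_add_eq, ← mul_add, ← Finset.sum_add_distrib]
  have : ∀ s, ((if ¬ p s then (1:ℝ) else 0) + if p s then (1:ℝ) else 0) = 1 := by
    intro s; by_cases h : p s <;> simp [h]
  rw [Finset.sum_congr rfl fun s _ => this s]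
  simp [h2]

/-- Lower bound for open sets. -/
theorem open_lower {J : Type*} {l : Filter J} [l.IsCountablyGenerated]
    {Ω : J → Type*} [∀ j, MeasurableSpace (Ω j)] (P : ∀ j, Measure (Ω j))
    [∀ j, IsProbabilityMeasure (P j)] {S : J → Type*} [∀ j, Fintype (S j)]
    (Z : ∀ j, Ω j → S j → F) (hZ : ∀ j s, Measurable fun ω => Z j ω s)
    (μ : Measure F) [IsProbabilityMeasure μ]
    (h : ∀ t : F, Tendsto (fun j => ∫ ω, ‖cfe (Z j ω) t - charFun μ t‖ ∂(P j)) l (𝓝 0))
    (U : Set F) (hU : IsOpen U) (ε : ℝ) (hε : 0 < ε) :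
    Tendsto (fun j => P j {ω | frac (fun s => Z j ω s ∈ U) ≤ μ.real U - ε}) l (𝓝 0) := by
  obtain ⟨K, hKU, hK, hμK⟩ : ∃ K ⊆ U, IsCompact K ∧ μ.real U - ε / 2 < μ.real K := by
    rcases eq_or_ne (μ U) 0 with h0 | h0
    · refine ⟨∅, Set.empty_subset _, isCompact_empty, ?_⟩
      simp [Measure.real, h0, hε]
    · have h1 : μ U - ENNReal.ofReal (ε / 2) < μ U :=
        ENNReal.sub_lt_self (measure_ne_top _ _) h0 (by simpa using hε)
      obtain ⟨K, hKU, hK, hlt⟩ := hU.exists_lt_isCompact h1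
      refine ⟨K, hKU, hK, ?_⟩
      have h2 : μ U < μ K + ENNReal.ofReal (ε / 2) := by
        by_contra hcon
        exact absurd hlt (not_lt.2 (ENNReal.le_sub_of_add_le_right ENNReal.ofReal_ne_top
          (not_lt.1 hcon)))
      have h3 : μ.real U < μ.real K + ε / 2 := by
        have := (ENNReal.toReal_lt_toReal (measure_ne_top _ _) (by finiteness)).2 h2
        rwa [ENNReal.toReal_add (measure_ne_top _ _) ENNReal.ofReal_ne_top,
          ENNReal.toReal_ofReal (by positivity)] at this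
      linarith
  obtain ⟨φ, hφd, hφs, hφ0, hφ1, hφK, hφU⟩ := exists_bump K U hK hU hKU
  have hφc : HasCompactSupport (fun x => (φ x : ℂ)) := by
    refine hφs.comp_left (g := fun r : ℝ => (r : ℂ)) (by simp)
  have hφd' : ContDiff ℝ ((⊤ : ℕ∞) : WithTop ℕ∞) (fun x => (φ x : ℂ)) := Complex.ofRealCLM.contDiff.comp hφd
  set Φ : 𝓢(F, ℂ) := hφc.toSchwartzMap hφd' with hΦ
  have hΦx : ∀ x, Φ x = (φ x : ℂ) := fun x => rfl
  have hT := tendsto_schwartz P Z hZ μ h Φ
  have hint : Integrable φ μ := by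
    refine Integrable.of_bound hφd.continuous.aestronglyMeasurable 1
      (Eventually.of_forall fun x => ?_)
    rw [Real.norm_eq_abs, abs_of_nonneg (hφ0 x)]
    exact hφ1 x
  have hKint : μ.real K ≤ ∫ x, φ x ∂μ := by
    rw [← integral_indicator_one hK.measurableSet]
    refine integral_mono ?_ hint fun x => ?_
    · exact (integrable_const (1:ℝ)).indicator hK.measurableSet
    · by_cases hx : x ∈ K
      · simp [hx, hφK x hx]
      · simp [hx, hφ0 x]
  have hkey : ∀ j ω, frac (fun s => Z j ω s ∈ U) ≤ μ.real U - ε →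
      ε / 2 ≤ ‖(Fintype.card (S j) : ℂ)⁻¹ * ∑ s, Φ (Z j ω s) - ∫ x, Φ x ∂μ‖ := by
    classical
    intro j ω hω
    have h1 : (Fintype.card (S j) : ℝ)⁻¹ * ∑ s, φ (Z j ω s) ≤ frac (fun s => Z j ω s ∈ U) := by
      rw [frac_eq_sum]
      refine mul_le_mul_of_nonneg_left (Finset.sum_le_sum fun s _ => ?_) (by positivity)
      by_cases hs : Z j ω s ∈ U
      · simp [hs, hφ1]
      · simp [hs, hφU _ hs]
    have h2 : (Fintype.card (S j) : ℂ)⁻¹ * ∑ s, Φ (Z j ω s) - ∫ x, Φ x ∂μ =
        (((Fintype.card (S j) : ℝ)⁻¹ * ∑ s, φ (Z j ω s) - ∫ x, φ x ∂μ : ℝ) : ℂ) := by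
      simp only [hΦx]
      rw [integral_complex_ofReal]
      push_cast
      rfl
    rw [h2, Complex.norm_real, Real.norm_eq_abs, abs_sub_comm]
    refine le_trans ?_ (le_abs_self _)
    linarith
  have hmeas : ∀ j, Measurable fun ω =>
      ‖(Fintype.card (S j) : ℂ)⁻¹ * ∑ s, Φ (Z j ω s) - ∫ x, Φ x ∂μ‖ := by
    intro j
    refine Measurable.norm (Measurable.sub_const (Measurable.const_mul ?_ _) _)
    exact Finset.measurable_sum _ fun s _ => Φ.continuous.measurable.comp (hZ j s)
  have hbd : ∀ j ω, ‖(Fintype.card (S j) : ℂ)⁻¹ * ∑ s, Φ (Z j ω s) - ∫ x, Φ x ∂μ‖ ≤ 2 := by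
    intro j ω
    refine (norm_sub_le _ _).trans ?_
    have h1 : ‖(Fintype.card (S j) : ℂ)⁻¹ * ∑ s, Φ (Z j ω s)‖ ≤ 1 := by
      rw [norm_mul, norm_inv, Complex.norm_natCast]
      have h1 : ‖∑ s, Φ (Z j ω s)‖ ≤ Fintype.card (S j) := by
        refine (norm_sum_le _ _).trans ?_
        calc ∑ s, ‖Φ (Z j ω s)‖ ≤ ∑ s : S j, (1:ℝ) := by
              refine Finset.sum_le_sum fun s _ => ?_
              rw [hΦx, Complex.norm_real, Real.norm_eq_abs, abs_of_nonneg (hφ0 _)]
              exact hφ1 _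
          _ = Fintype.card (S j) := by simp
      rcases (Nat.cast_nonneg (α := ℝ) (Fintype.card (S j))).eq_or_lt with h2 | h2
      · rw [← h2]; simp
      · rw [inv_mul_le_iff₀ h2]; simpa using h1
    have h2 : ‖∫ x, Φ x ∂μ‖ ≤ 1 := by
      refine (norm_integral_le_of_norm_le_const (C := 1) (Eventually.of_forall fun x => ?_)).trans ?_
      · rw [hΦx, Complex.norm_real, Real.norm_eq_abs, abs_of_nonneg (hφ0 _)]
        exact hφ1 _
      · simp
    linarith
  have hP : ∀ j, (P j {ω | frac (fun s => Z j ω s ∈ U) ≤ μ.real U - ε}) ≤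
      ENNReal.ofReal ((2 / ε) *
        ∫ ω, ‖(Fintype.card (S j) : ℂ)⁻¹ * ∑ s, Φ (Z j ω s) - ∫ x, Φ x ∂μ‖ ∂(P j)) := by
    intro j
    have hI : Integrable (fun ω =>
        ‖(Fintype.card (S j) : ℂ)⁻¹ * ∑ s, Φ (Z j ω s) - ∫ x, Φ x ∂μ‖) (P j) := by
      refine Integrable.of_bound (hmeas j).aestronglyMeasurable 2
        (Eventually.of_forall fun ω => ?_)
      rw [norm_norm]
      exact hbd j ω
    have h1 := mul_meas_ge_le_integral_of_nonneg (Eventually.of_forall fun ω => norm_nonneg _) hI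
      (ε / 2)
    have h2 : (P j).real {ω | frac (fun s => Z j ω s ∈ U) ≤ μ.real U - ε} ≤
        (P j).real {ω | ε / 2 ≤ ‖(Fintype.card (S j) : ℂ)⁻¹ * ∑ s, Φ (Z j ω s) - ∫ x, Φ x ∂μ‖} :=
      measureReal_mono fun ω hω => hkey j ω hω
    rw [← ENNReal.ofReal_toReal (measure_ne_top (P j) _)]
    refine ENNReal.ofReal_le_ofReal ?_
    have h3 : (P j).real {ω | frac (fun s => Z j ω s ∈ U) ≤ μ.real U - ε} ≤
        (2 / ε) * ∫ ω, ‖(Fintype.card (S j) : ℂ)⁻¹ * ∑ s, Φ (Z j ω s) - ∫ x, Φ x ∂μ‖ ∂(P j) := by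
      refine h2.trans ?_
      rw [div_mul_eq_mul_div, le_div_iff₀ hε]
      have := h1
      linarith
    exact h3
  have hlim : Tendsto (fun j => ENNReal.ofReal ((2 / ε) *
        ∫ ω, ‖(Fintype.card (S j) : ℂ)⁻¹ * ∑ s, Φ (Z j ω s) - ∫ x, Φ x ∂μ‖ ∂(P j))) l (𝓝 0) := by
    have := (hT.const_mul (2 / ε))
    rw [mul_zero] at this
    have h2 := ENNReal.tendsto_ofReal this
    rwa [ENNReal.ofReal_zero] at h2
  exact tendsto_of_tendsto_of_tendsto_of_le_of_le tendsto_const_nhds hlim (fun j => zero_le) hP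

/-- Convergence in probability of the mass of sets with null boundary. -/
theorem tendsto_frac {J : Type*} {l : Filter J} [l.IsCountablyGenerated]
    {Ω : J → Type*} [∀ j, MeasurableSpace (Ω j)] (P : ∀ j, Measure (Ω j))
    [∀ j, IsProbabilityMeasure (P j)] {S : J → Type*} [∀ j, Fintype (S j)] [∀ j, Nonempty (S j)]
    (Z : ∀ j, Ω j → S j → F) (hZ : ∀ j s, Measurable fun ω => Z j ω s)
    (μ : Measure F) [IsProbabilityMeasure μ]
    (h : ∀ t : F, Tendsto (fun j => ∫ ω, ‖cfe (Z j ω) t - charFun μ t‖ ∂(P j)) l (𝓝 0))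
    (W : Set F) (hW : μ (frontier W) = 0) (ε : ℝ) (hε : 0 < ε) :
    Tendsto (fun j => P j {ω | ε ≤ |frac (fun s => Z j ω s ∈ W) - μ.real W|}) l (𝓝 0) := by
  have h1 := open_lower P Z hZ μ h (interior W) isOpen_interior ε hε
  have h2 := open_lower P Z hZ μ h (interior Wᶜ) isOpen_interior ε hε
  have h3 := h1.add h2
  rw [add_zero] at h3
  refine tendsto_of_tendsto_of_tendsto_of_le_of_le tendsto_const_nhds h3 (fun j => zero_le)
    fun j => ?_
  refine le_trans (measure_mono ?_) (measure_union_le _ _)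
  intro ω hω
  simp only [Set.mem_ofPred_eq, Set.mem_union] at hω ⊢
  have e1 : μ.real (interior W) = μ.real W := by
    unfold Measure.real; rw [measure_interior_of_null_frontier hW]
  have e2 : μ.real (interior Wᶜ) = 1 - μ.real W := by
    rw [interior_compl, probReal_compl_eq_one_sub isClosed_closure.measurableSet]
    unfold Measure.real; rw [measure_closure_of_null_frontier hW]
  rw [e1, e2]
  have f1 : frac (fun s => Z j ω s ∈ interior W) ≤ frac (fun s => Z j ω s ∈ W) :=
    frac_mono fun s hs => interior_subset hs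
  have f2 : frac (fun s => Z j ω s ∈ interior Wᶜ) ≤ 1 - frac (fun s => Z j ω s ∈ W) := by
    rw [← frac_not]
    exact frac_mono fun s hs => interior_subset hs
  rcases le_abs'.1 hω with h4 | h4
  · left; linarith
  · right; linarith

end

end Vale.Agent.P156.H924
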